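import Crest.Agent.X212.Kh11.Lev
import Crest.Agent.X212.Cut21.Brg

/-! X212 / KH-N1 (helper44): normal position in the tetrahedra. -/

set_option autoImplicit false
set_option linter.unusedSectionVars false
set_option maxHeartbeats 400000

open Finset Classical

noncomputable section

namespace Crest.Agent.X212.Kn44

open Hp13 Hk
open Alg36 (Om Esc mix)

variable {P R : Type} [PartialOrder P] [Fintype P] [PartialOrder R] {car : P → R}
  {Y X X' G U V B K E C : Set P} {x y : P}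

/-! ### two sides -/

theorem two_symm (h : Two car Y X G X') (hY : IsUpperSet Y) (hG : G ⊆ Y) : Two car Y X' G X := by
  refine ⟨h.mono, h.up', h.up, h.sub', h.sub, fun y hy => by have := h.cov y hy; tauto, h.dj.symm,
    Set.disjoint_left.2 fun x hx k => h.bd.not k hx, ⟨h.bd.low, fun x hx => ?_, fun x hx y hy l => ?_⟩,
    h.tv', h.tv⟩
  · obtain ⟨a, ha⟩ := (h.tv' Set.univ isLowerSet_univ x ⟨hx, hG hx⟩ trivial).ne
    exact ⟨Set.disjoint_right.1 h.dg hx, a, ha.1, ha.2.1⟩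
  · obtain ⟨h1, a, ha, k⟩ := hy
    rcases h.cov y (hY l (hG hx)) with e | e | e
    exacts [absurd ha (Set.disjoint_left.1 h.dj (h.up k e)), e, absurd e h1]

/-- a connected set off `G` lies on one side -/
theorem two_side (h : Two car Y X G X') (hK : Conn K) (hY : K ⊆ Y) (hG : Disjoint K G) :
    K ⊆ X ∨ K ⊆ X' := by
  have c : ∀ x ∈ K, x ∉ X → x ∈ X' := fun x hx k =>
    ((h.cov x (hY hx)).resolve_left k).resolve_left (Set.disjoint_left.1 hG hx)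
  by_cases e : ∃ x ∈ K, x ∈ X
  · obtain ⟨x, hx, k⟩ := e
    refine .inl fun y hy => (hK x hx y hy).ind k fun a ha b _ l => ⟨fun k => h.up l k, fun k => ?_⟩
    by_contra n
    exact Set.disjoint_left.1 h.dj k (h.up' l (c a ha n))
  · exact .inr fun x hx => c x hx fun k => e ⟨x, hx, k⟩

theorem two_rg (h : Two car Y X G X') (hY : Rg Y) (hG : G ⊆ Y) : Rg X := by
  refine rg_of h.up (hY.mf.mono h.sub) fun x hx => ?_
  obtain ⟨h1, a, ha, l⟩ := hx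
  by_cases e : x ∈ G
  · simpa using h.tv Set.univ isLowerSet_univ x ⟨e, hG e⟩ trivial
  have c := hY.ctr (x := x) ⟨a, h.sub ha, l⟩
  rcases two_side h c.conn (fun _ k => k.1)
    (Set.disjoint_left.2 fun y hy k => e (h.bd.low hy.2 k)) with k | k
  · rwa [show {a | a ∈ X ∧ x ≤ a} = {a | a ∈ Y ∧ x ≤ a} from
      Set.ext fun y => ⟨fun j => ⟨h.sub j.1, j.2⟩, fun j => ⟨k j, j.2⟩⟩]
  · exact absurd (k ⟨h.sub ha, l⟩) (Set.disjoint_left.1 h.dj ha)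

theorem two_om (h : Two car Y X G X') (hx : x ∈ Om X) (hy : x ∈ Y) : x ∈ G := by
  obtain ⟨h1, a, ha, l⟩ := hx
  rcases h.cov x hy with e | e | e
  exacts [absurd e h1, e, absurd (h.up' l e) (Set.disjoint_left.1 h.dj ha)]

theorem bd_mfIn (nm : NmStmt) (hX : Rg X) (h : Bd X G) : MfIn G Set.univ :=
  Mf.emb (A := (Subtype.val ⁻¹' Set.univ : Set (Om X))) (f := Set.inclusion h.sub)
    (fun _ _ => Iff.rfl) (fun _ _ => trivial) (fun b _ x c => ⟨⟨x.1, c.elim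
      (fun l => h.clo _ b.2 _ x.2 l) fun l => h.low l b.2⟩, rfl⟩) ((nm P).1 X hX).1

theorem mfIn_of {H : Set P} (A : Set P) (h : ∀ x ∈ H, ∃ G ⊆ H, x ∈ G ∧ MfIn G Set.univ ∧
    ∀ a ∈ G, ∀ y ∈ H, Cm a y → y ∈ G) : MfIn H A := by
  have m : ∀ c : Ch H, ∃ G : Set P, Mf 2 (Subtype.val ⁻¹' G : Set H) ∧ Mt (Subtype.val ⁻¹' G) c :=
    fun c => by
      obtain ⟨G, s, k, m, l⟩ := h _ c.top.2
      exact ⟨G, Cut21.mf_img (B := Subtype.val ⁻¹' Set.univ) (f := Set.inclusion s)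
        (fun _ _ => Iff.rfl) (fun a ha => ⟨⟨a.1, ha⟩, trivial, rfl⟩)
        (fun a ha x c => ⟨⟨x.1, l _ ha _ x.2 c⟩, rfl⟩) m, _, c.top_mem, k⟩
  exact ⟨fun c _ => (m c).elim fun _ e => e.1.card_le c e.2, fun c _ => (m c).elim fun _ e =>
    e.1.eul c e.2, fun c _ => (m c).elim fun _ e => e.1.conn c e.2,
    fun c _ => (m c).elim fun _ e => e.1.pure c e.2⟩

section fam
variable {k : ℕ} {U G V : Fin k → Set P} (h : Fm car Y k U G V)
include h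

theorem fm_low : IsLowerSet (⋃ j, G j) := isLowerSet_iUnion fun j => (h.mem j).two.bd.low

theorem fm_sub : (⋃ j, G j) ⊆ Y := Set.iUnion_subset fun j => (h.mem j).sub

theorem fm_eq {i j : Fin k} (hi : x ∈ G i) (hj : x ∈ G j) : i = j :=
  by_contra fun n => Set.disjoint_left.1 (h.dj i j n) hi hj

theorem fm_cm {i : Fin k} (hi : x ∈ G i) (hy : y ∈ ⋃ j, G j) (c : Cm x y) : y ∈ G i := by
  obtain ⟨j, hj⟩ := Set.mem_iUnion.1 hy
  rcases c with l | l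
  · exact fm_eq h ((h.mem j).two.bd.low l hj) hi ▸ hj
  · exact (h.mem i).two.bd.low l hi

theorem fm_mfIn (nm : NmStmt) (hY : Rg Y) (A : Set P) : MfIn (⋃ j, G j) A :=
  mfIn_of A fun _ hx => (Set.mem_iUnion.1 hx).elim fun j hj => ⟨G j, Set.subset_iUnion G j, hj,
    bd_mfIn nm (two_rg (h.mem j).two hY (h.mem j).sub) (h.mem j).two.bd, fun _ ha _ => fm_cm h ha⟩

/-- every component of `F ∩ B` touches `F \ B` -/
theorem fm_esc (hB : Bal Y B) (hx : x ∈ (⋃ j, G j) ∩ B) :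
    ∃ a ∈ cmp ((⋃ j, G j) ∩ B) x, ∃ b ∈ (⋃ j, G j) \ B, Cm a b := by
  by_contra n
  obtain ⟨j, hj⟩ := Set.mem_iUnion.1 hx.1
  refine (h.mem j).nb.zero hB fun y hy => ?_
  have s := Set.subset_iUnion G j
  have : y ∈ cmp ((⋃ j, G j) ∩ B) x := ((h.mem j).conn x hj y hy).ind (mem_cmp_self hx)
    fun a ha b hb l => ⟨fun k => (isCmp_cmp hx).clopen k ⟨s hb, hB.up l k.1.2⟩ (.inl l),
      fun k => (isCmp_cmp hx).clopen k
        ⟨s ha, by_contra fun e => n ⟨b, k, a, ⟨s ha, e⟩, .inr l⟩⟩ (.inr l)⟩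
  exact this.1.2

/-- the innermost disc of the sphere around `B` -/
theorem disc (nm : NmStmt) (inn : InnStmt) (pcs : PcStmt) (hY : Amb Y) (hB : Bal Y B)
    (hx : x ∈ (⋃ j, G j) ∩ B) : ∃ i X u Z, (X = U i ∨ X = V i) ∧ TD X u ∧ On X (G i) u ∧
      Z ⊆ G i ∧ Ctr Z ∧ Fro (G i) Z u ∧ (∃ a ∈ G i, ∃ b ∈ G i, a ≤ b ∧ u a b ≠ 0) ∧
      (∀ a b, u a b = 0 ∨ (u a b = 1 ∧ a ∉ B ∧ b ∈ B)) ∧ ∀ j, j ≠ i → Flat (G j) u := by
  have sp := hB.sp hY.toRg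
  obtain ⟨D, hD⟩ := inn P Y _ _ hY.toRg (fm_low h) (fm_mfIn h nm hY.toRg Y) (.inr sp)
    (sp.flat.mono Set.inter_subset_right) fun e => by
      obtain ⟨a, ha, b, hb, c⟩ := fm_esc h hB hx
      have l : b ≤ a := c.resolve_left fun l => hb.2 (hB.up l ha.1.2)
      exact hb.2 ((cb_ind_eq_zero.1 (e b ⟨hb.1, Hk.sub_cl (fm_sub h hb.1)⟩ a
        ⟨ha.1.1, Hk.sub_cl (hB.sub ha.1.2)⟩ l)).2 ha.1.2)
  obtain ⟨c₀, hc₀, e₀, he₀, l₀⟩ := hD.ne
  obtain ⟨i, hi⟩ := Set.mem_iUnion.1 (he₀.1 _ e₀.top_mem)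
  -- the boundary curve lies in `G i`
  have bi : ∀ c ∈ D, ∀ e ∈ Cv (⋃ j, G j) (cb (ind B)), e ≤ c → e.top ∈ G i := fun c hc e he l =>
    (hD.fc e₀ ⟨he₀, c₀, hc₀, l₀⟩ e ⟨he, c, hc, l⟩).ind (p := fun e => e.top ∈ G i) hi
      fun a _ b hb l => ⟨fun k => fm_cm h k (hb.1.1 _ b.top_mem) (.inl (Ch.top_mono l)),
        fun k => (h.mem i).two.bd.low (Ch.top_mono l) k⟩
  have nF : ∀ c ∈ D, c.top ∉ ⋃ j, G j := fun c hc k =>
    (hD.cmp.sub hc).2 ((mem_cv (fm_low h)).2 ⟨k, (hD.cmp.sub hc).1.2⟩)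
  have cK : Conn (Ch.top '' D) := by
    rintro _ ⟨a, ha, rfl⟩ _ ⟨b, hb, rfl⟩
    exact (hD.cmp.conn a ha b hb).map fun x hx y hy l =>
      .of_cm ⟨x, hx, rfl⟩ ⟨y, hy, rfl⟩ (.inl (Ch.top_mono l))
  have val : ∀ a b, pc (cb (ind B)) D a b = 0 ∨ (pc (cb (ind B)) D a b = 1 ∧ (a ∉ B ∧ b ∈ B) ∧
      ∃ c ∈ D, a ∈ c.1 ∧ b ∈ c.1) := fun a b => by
    unfold pc
    split_ifs with e
    exacts [.inr ⟨rfl, cb_ind_pos.1 e.1, e.2⟩, .inl rfl]
  have key : ∀ X X', Two car Y X (G i) X' → INC X (G i) → Ch.top '' D ⊆ X →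
      TD X (pc (cb (ind B)) D) ∧ On X (G i) (pc (cb (ind B)) D) ∧
        Ines (G i) (pc (cb (ind B)) D) := fun X X' tw inc hX => by
    have cm : IsCmp (CA (Y ∩ X) (cb (ind B))) D := by
      have s : D ⊆ CA (Y ∩ X) (cb (ind B)) := fun c hc =>
        ⟨⟨(hD.cmp.sub hc).1.1, hX ⟨c, hc, rfl⟩⟩, (hD.cmp.sub hc).1.2⟩
      have cl : ∀ c ∈ D, ∀ e ∈ CA (Y ∩ X) (cb (ind B)), Cm c e → e ∈ D := fun c hc e he m =>
        hD.cmp.clopen hc ⟨⟨he.1.1, he.2⟩, fun k => m.elim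
          (fun l => nF c hc (k.1 _ (l c.top_mem))) fun l => tw.bd.not (bi c hc e k l) he.1.2⟩ m
      refine ⟨c₀, s hc₀, Set.Subset.antisymm (fun c hc =>
        ⟨s hc, (hD.cmp.conn _ hc₀ _ hc).mono s⟩) fun c hc => (hc.2.in_clopen cl hc₀).mem hc₀⟩
    have td := (pcs P Y X _ D (two_rg tw hY.toRg (h.mem i).sub) hY.up sp.toS1 cm
      fun _ _ _ _ _ _ k _ => tw.sub k).2.2 hD.eu ⟨c₀, hc₀, e₀, l₀, he₀.2, tw.bd.not hi⟩
    have on : On X (G i) (pc (cb (ind B)) D) := fun a _ b hb _ =>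
      (val a b).resolve_right fun k => hb.2 (two_om tw hb.1 (hB.sub k.2.1.2))
    exact ⟨td, on, inc.zero td on⟩
  have fin : ∀ X, X = U i ∨ X = V i → TD X (pc (cb (ind B)) D) ∧ On X (G i) (pc (cb (ind B)) D) ∧
      Ines (G i) (pc (cb (ind B)) D) → _ := fun X hX ⟨td, on, Z, z1, z2, z3⟩ =>
    (⟨i, X, _, Z, hX, td, on, z1, z2, z3, ⟨e₀.bot, (h.mem i).two.bd.low e₀.bot_le_top hi, e₀.top,
      hi, e₀.bot_le_top, by
        rw [pc, if_pos ⟨he₀.2, c₀, hc₀, l₀ e₀.bot_mem, l₀ e₀.top_mem⟩]; exact one_ne_zero⟩,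
      fun a b => (val a b).elim .inl fun k => .inr ⟨k.1, k.2.1⟩,
      fun j hj a ha b hb l => (val a b).resolve_right fun ⟨_, k, c, hc, k1, k2⟩ => by
        have := bi c hc (Ch.pr a b l) ((mem_cv (fm_low h)).2 ⟨by
          simpa using ⟨j, hb⟩, by simpa using cb_ind_pos.2 k⟩) (by
            intro z hz
            simp only [Ch.pr, Ch.ins, Ch.mk', Ch.pt, mem_insert, mem_singleton] at hz
            rcases hz with rfl | rfl <;> assumption)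
        exact hj (fm_eq h hb (by simpa using this))⟩ :
      ∃ i X u Z, (X = U i ∨ X = V i) ∧ TD X u ∧ On X (G i) u ∧
      Z ⊆ G i ∧ Ctr Z ∧ Fro (G i) Z u ∧ (∃ a ∈ G i, ∃ b ∈ G i, a ≤ b ∧ u a b ≠ 0) ∧
      (∀ a b, u a b = 0 ∨ (u a b = 1 ∧ a ∉ B ∧ b ∈ B)) ∧ ∀ j, j ≠ i → Flat (G j) u)
  rcases two_side (h.mem i).two cK (by rintro _ ⟨c, hc, rfl⟩; exact (hD.cmp.sub hc).1.1)
    (Set.disjoint_left.2 (by
      rintro _ ⟨c, hc, rfl⟩ k; exact nF c hc (Set.subset_iUnion G i k))) with k | k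
  · exact fin _ (.inl rfl) (key _ _ (h.mem i).two (h.mem i).inc k)
  · exact fin _ (.inr rfl) (key _ _ (two_symm (h.mem i).two hY.up (h.mem i).sub) (h.mem i).inc' k)

/-- one step: a reducing disc, or a smaller ball -/
theorem step (nm : NmStmt) (inn : InnStmt) (pcs : PcStmt) (cap : CapStmt) (sws : SwsStmt)
    (hY : Amb Y) {A T D : Set P} (hA : IsUpperSet A) (hAY : A ⊆ Y) (hT : Disjoint A T)
    (hc : ∀ a ∈ Y, ∀ b ∈ A, a ∉ T → Cm a b → a ∈ A) (hD : ¬ Ctr D) :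
    ∀ n (B : Set P), B.ncard = n → Bal Y B → B ⊆ A → IsCmp ((⋃ j, G j) ∩ B) D →
      (∀ x ∈ (⋃ j, G j) \ B, ∃ y, y ∉ A ∧ Rch ((⋃ j, G j) \ B) x y) →
      ∃ i X u Z, (X = U i ∨ X = V i) ∧ Red T G i X u Z := by
  intro n
  induction n using Nat.strong_induction_on with | _ n ih => ?_
  intro B hn hB hBA cD inv
  obtain ⟨x, hx⟩ := cD.ne
  obtain ⟨i, X, u, Z, hX, td, on, z1, z2, z3, ⟨a, ha, b, hb, l, hab⟩, val, fl⟩ :=
    disc h nm inn pcs hY hB (cD.sub hx)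
  by_cases e : (Z ∩ T).Nonempty
  · exact ⟨i, X, u, Z, hX, td, on, fun a _ b hb _ => (val a b).resolve_right fun k =>
      Set.disjoint_left.1 hT (hBA k.2.2) hb.1, fun j hj => (fl j hj).mono Set.inter_subset_left,
      z1, z2, z3, e⟩
  have gi := Set.subset_iUnion G i
  have nT : ∀ z ∈ Z, z ∉ T := fun z hz k => e ⟨z, hz, k⟩
  have ZY : Z ⊆ Y := z1.trans (h.mem i).sub
  have bA : b ∈ A := hBA ((val a b).resolve_left hab).2.2
  have ZA : Z ⊆ A := by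
    obtain ⟨z, hz, k⟩ : ∃ z ∈ Z, z ∈ A := by
      by_cases k : b ∈ Z
      · exact ⟨b, k, bA⟩
      · have : a ∈ Z := by_contra fun k' => hab ((z3.iff ha hb l).2 (iff_of_false k' k))
        exact ⟨a, this, hc a (ZY this) b bA (nT a this) (.inl l)⟩
    exact fun y hy => (z2.conn z hz y hy).ind k fun a ha b hb l =>
      ⟨fun k => hA l k, fun k => hc a (ZY ha) b k (nT a ha) (.inl l)⟩
  have off : ∀ {p q : P}, p ∈ ⋃ j, G j → q ∈ ⋃ j, G j → p ≤ q → q ∉ G i →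
      u p q = 0 ∧ cb (ind Z) p q = 0 := fun {p q} hp hq l k => by
    obtain ⟨j, hj⟩ := Set.mem_iUnion.1 hq
    have hj' := (h.mem j).two.bd.low l hj
    have n : j ≠ i := fun e => k (e ▸ hj)
    exact ⟨fl j n p hj' q hj l, cb_ind_eq_zero.2 (iff_of_false
      (fun k => n (fm_eq h hj' (z1 k))) fun k' => k (z1 k'))⟩
  have fro : Fro (⋃ j, G j) Z u := z3.imp
    (fun e p hp q hq l => if k : q ∈ G i then e p ((h.mem i).two.bd.low l k) q k l else by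
      rw [(off hp hq l k).1, (off hp hq l k).2])
    fun e p hp q hq l => if k : q ∈ G i then e p ((h.mem i).two.bd.low l k) q k l else by
      rw [(off hp hq l k).1, Pi.neg_apply, Pi.neg_apply, (off hp hq l k).2, neg_zero]
  have nc := cap P A _ (cb (ind B)) u hA (fm_low h) (fm_mfIn h nm hY.toRg A)
    ((hB.sp hY.toRg).toS1.mono hAY) ⟨Z, z1.trans gi, ZA, z2, fro⟩
    (fun k => hab (k a (gi ha) b (gi hb) l))
    fun p _ q _ _ => (val p q).imp_right fun k => ⟨k.1, cb_ind_eq_one.2 k.2⟩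
  obtain ⟨W, hW⟩ := not_forall.1 nc
  rcases not_and_or.1 hW with k | k
  swap
  · -- no lower cap
    have k := not_not.1 k
    obtain ⟨p, hp, q, hq, l, nq⟩ := k.ne
    have nB : Disjoint W B := (k.flat.sub_or k.ctr.conn).resolve_left fun s =>
      (cb_ind_eq_one.1 (k.one p hp q hq l nq)).1 (s hp)
    obtain ⟨y, hy, r⟩ := inv p ⟨(k.sub hp).1, Set.disjoint_left.1 nB hp⟩
    exact absurd (k.sub (r.ind (p := (· ∈ W)) hp fun a _ b hb l => ⟨fun e => by_contra fun n =>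
      hb.2 (cb_ind_eq_one.1 (k.one a e b hb.1 l n)).2, fun e => k.low l e⟩)).2 hy
  have k := not_not.1 k
  obtain ⟨q, hq, p, l, np⟩ := k.ne
  have WB : W ⊆ B := (k.flat.sub_or k.ctr.conn).resolve_right fun s =>
    Set.disjoint_left.1 s hq (cb_ind_eq_one.1 (k.one q hq p l np)).2
  have DW : Disjoint D W := Set.disjoint_left.2 fun d hd hw => hD (by
    have s : W ⊆ (⋃ j, G j) ∩ B := fun y hy => ⟨(k.sub hy).1, WB hy⟩
    have : D = W := (cD.eq hd).trans (Set.Subset.antisymm (fun y hy => hy.2.ind (p := (· ∈ W)) hw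
      fun a ha b hb l => ⟨fun e => k.up a e b hb.1 l, fun e => by_contra fun n =>
        (cb_ind_eq_one.1 (k.one b e a l n)).1 ha.2⟩)
      fun y hy => ⟨s hy, (k.ctr.conn d hw y hy).mono s⟩)
    exact this ▸ k.ctr)
  have key : ∀ B₁ B₂, Bal Y B₁ → Bal Y B₂ → Disjoint B₁ B₂ → B₁ ∪ B₂ = B \ W → x ∈ B₁ →
      ∃ i X u Z, (X = U i ∨ X = V i) ∧ Red T G i X u Z := fun B₁ B₂ b1 b2 dj un x1 => by
    have s1 : B₁ ⊆ B \ W := un ▸ Set.subset_union_left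
    have sB : B₁ ⊆ B := fun y hy => (s1 hy).1
    -- `B₁` is clopen in `F ∩ B`
    have cl : ∀ a ∈ (⋃ j, G j) ∩ B, ∀ b ∈ (⋃ j, G j) ∩ B, a ≤ b → (a ∈ B₁ ↔ b ∈ B₁) :=
      fun a ha b hb l => ⟨fun e => b1.up l e, fun e => by
        have : a ∈ B₁ ∪ B₂ := un ▸ ⟨ha.2, fun w => (s1 e).2 (k.up a w b hb.1 l)⟩
        exact this.resolve_right fun e' => Set.disjoint_left.1 dj e (b2.up l e')⟩
    refine ih _ (hn ▸ Set.ncard_lt_ncard ⟨sB, fun s => (s1 (s (WB hq))).2 hq⟩ (Set.toFinite _)) B₁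
      rfl b1 (sB.trans hBA) ⟨x, ⟨(cD.sub hx).1, x1⟩, ?_⟩ fun y hy => ?_
    · have s : D ⊆ (⋃ j, G j) ∩ B₁ := fun y hy => ⟨(cD.sub hy).1,
        (cD.conn x hx y hy).ind x1 fun a ha b hb => cl a (cD.sub ha) b (cD.sub hb)⟩
      refine Set.Subset.antisymm (fun y hy => ⟨s hy, (cD.conn x hx y hy).mono s⟩) fun y hy => ?_
      rw [cD.eq hx]
      exact ⟨⟨hy.1.1, sB hy.1.2⟩, hy.2.mono (Set.inter_subset_inter_right _ sB)⟩
    · have m : (⋃ j, G j) \ B ⊆ (⋃ j, G j) \ B₁ := Set.sdiff_subset_sdiff_right sB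
      by_cases yB : y ∈ B
      · have yF : y ∈ (⋃ j, G j) ∩ B := ⟨hy.1, yB⟩
        obtain ⟨a, ha, b, hb, c⟩ := fm_esc h hB yF
        obtain ⟨z, hz, r⟩ := inv b hb
        have s : cmp ((⋃ j, G j) ∩ B) y ⊆ (⋃ j, G j) \ B₁ := fun w hw =>
          ⟨hw.1.1, hw.2.ind (p := (· ∉ B₁)) hy.2 fun a ha b hb l => (cl a ha b hb l).not⟩
        exact ⟨z, hz, (((isCmp_cmp yF).conn y (mem_cmp_self yF) a ha).mono s).trans
          ((Rch.of_cm (s ha) (m hb) c).trans (r.mono m))⟩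
      · obtain ⟨z, hz, r⟩ := inv y ⟨hy.1, yB⟩
        exact ⟨z, hz, r.mono m⟩
  obtain ⟨B₁, B₂, b1, b2, dj, un⟩ := sws P Y A _ B W hY hAY (fm_low h) (fm_mfIn h nm hY.toRg A) hB k
  have : x ∈ B₁ ∪ B₂ := un ▸ ⟨(cD.sub hx).2, Set.disjoint_left.1 DW hx⟩
  rcases this with e | e
  exacts [key _ _ b1 b2 dj un e, key _ _ b2 b1 dj.symm (Set.union_comm _ _ ▸ un) e]

end fam

/-- **KH-N1** -/
theorem n1Stmt (nm : NmStmt) (inn : InnStmt) (pcs : PcStmt) (cap : CapStmt) (sws : SwsStmt)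
    (nf : Nf0Stmt) : N1Stmt := by
  intro P _ _ Y t f k U G V h
  refine or_iff_not_imp_left.2 fun n => ?_
  obtain ⟨τ, hτ, D, cD, hD⟩ : ∃ τ : Ch P, τ.1.card = 4 ∧
      ∃ D, IsCmp ((⋃ j, G j) ∩ f ⁻¹' {τ}) D ∧ ¬ Ctr D := by
    simpa only [N1, not_forall, exists_prop] using n
  obtain ⟨x, hx⟩ := cD.ne
  have τY : τ.top ∈ Y := by
    have := fm_sub h.fm (cD.sub hx).1
    rwa [Set.mem_preimage, show f x = τ from (cD.sub hx).2] at this
  have eq : ∀ c : Ch P, τ ≤ c → c = τ := fun c l => Subtype.ext (eq_of_subset_of_card_le l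
    (hτ ▸ h.amb.mf.card_le c ⟨_, l τ.top_mem, τY⟩)).symm
  have e : {x | τ ≤ f x} = f ⁻¹' {τ} := Set.ext fun y => ⟨eq _, fun k => ge_of_eq k⟩
  have hB := ((nf P Y t f h.amb h.tw).1 τ).2.2.2.1 τY
  rw [e] at hB
  refine step h.fm nm inn pcs cap sws ((h.amb.pre (Tw.one P)).pre h.tw) hB.up hB.sub
    (Set.disjoint_left.2 fun a ha k => ?_) (fun a _ b hb k c => ?_) hD _ _ rfl hB subset_rfl cD
    fun y hy => ⟨y, hy.2, .rfl⟩
  · rw [Sk, Set.mem_ofPred, show f a = τ from ha] at k; omega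
  · rcases c with l | l
    · have l' : f a ≤ τ := (h.tw.mono l).trans_eq hb
      have k' : ¬ (f a).1.card ≤ 3 := k
      exact Subtype.ext (eq_of_subset_of_card_le l' (by omega))
    · exact hB.up l hb

end Crest.Agent.X212.Kn44
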