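import Crest.Agent.X212.Kn44.N1

/-! X212 / KH-RED1 (helper44): a reducing disc lowers the complexity. -/

set_option autoImplicit false
set_option linter.unusedSectionVars false
set_option maxHeartbeats 400000

open Finset Classical

noncomputable section

namespace Crest.Agent.X212.Kn44

open Hp13 Hk
open Alg36 (Om Esc mix)

variable {P R : Type} [PartialOrder P] [Fintype P] [PartialOrder R] {car : P → R}
  {Y X G N T E C : Set P} {x y : P}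

theorem ncmp_le (h : C ⊆ E) (hc : ∀ x ∈ C, ∀ y ∈ E, Cm x y → y ∈ C) : ncmp C ≤ ncmp E := by
  by_cases e : E ⊆ C
  · rw [Set.Subset.antisymm h e]
  · obtain ⟨k, h1, h2⟩ := Set.not_subset.1 e
    exact (Hp13.ncmp_lt h hc h1 h2).le

/-- the moved surface over a subcomplex that does not see the frontier of `N` -/
theorem mvG_inter (hG : G ⊆ cl X) (hT : IsLowerSet T) (h : Flat (T ∩ cl X) (cb (ind N))) :
    mvG X G N ∩ t2 ⁻¹' T = t2 ⁻¹' ((G \ N) ∩ T) := by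
  have k : ∀ c : Ch (Ch P), t2 c ∈ T → t2 c ∈ cl X → ∀ x ∈ c.bot.1, (x ∈ N ↔ t2 c ∈ N) :=
    fun c h1 h2 x hx => cb_ind_eq_zero.1
      (h x ⟨hT (le_t2 hx) h1, Hk.cl_low (le_t2 hx) h2⟩ _ ⟨h1, h2⟩ (le_t2 hx))
  ext c
  constructor
  · rintro ⟨⟨h1, x, hx, n⟩ | ⟨⟨h1, y, hy, m⟩, x, hx, n⟩, h2⟩
    · exact ⟨⟨h1, fun e => n ((k c h2 (hG h1) x hx).2 e)⟩, h2⟩
    · exact absurd ((k c h2 h1 x hx).2 ((k c h2 h1 y hy).1 m)) n
  · rintro ⟨⟨h1, n⟩, h2⟩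
    exact ⟨.inl ⟨h1, _, c.bot.top_mem, fun e => n ((k c h2 (hG h1) _ c.bot.top_mem).1 e)⟩, h2⟩

section fam
variable {k : ℕ} {U G V : Fin k → Set P} (h : Fm car Y k U G V)
include h

theorem fm_side {i j : Fin k} (n : j ≠ i) : G j ⊆ U i ∨ G j ⊆ V i :=
  two_side (h.mem i).two (h.mem j).conn (h.mem j).sub (h.dj j i n)

theorem fm_nest (hY : Amb Y) {i j : Fin k} (n : i ≠ j) (s : G j ⊆ U i) : G i ⊆ V j := by
  refine (fm_side h n).resolve_left fun s' => ?_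
  have ti := (h.mem i).two
  have tj := (h.mem j).two
  have cl : ∀ x, ∀ y ∈ U i ∪ U j, x ≤ y → x ∈ U i ∪ U j := fun x y hy l => by_contra fun e =>
    hy.elim (fun k => e (.inr (s' ((h.mem i).om ⟨fun m => e (.inl m), y, k, l⟩))))
      fun k => e (.inl (s ((h.mem j).om ⟨fun m => e (.inr m), y, k, l⟩)))
  obtain ⟨a, ha⟩ := (h.mem i).ne
  obtain ⟨b, hb, r, x, hx, c⟩ := hY.esc a ((h.mem i).sub ha)
  have hb' : b ∈ U i ∪ U j := r.ind (.inr (s' ha)) fun p _ q _ l =>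
    ⟨fun e => (ti.up.union tj.up) l e, fun e => cl p q e l⟩
  exact hx (c.elim (fun l => hY.up l hb) fun l => (cl x b hb' l).elim (ti.sub ·) (tj.sub ·))

theorem fm_pre (hY : Amb Y) {t : St} {f : t.P → P} (w : Tw P t f) :
    Fm (car ∘ f) (f ⁻¹' Y) k (fun j => f ⁻¹' U j) (fun j => f ⁻¹' G j) fun j => f ⁻¹' V j :=
  ⟨fun i => (h.mem i).pre w, fun i j n => (h.dj i j n).preimage f,
    fun i j n => (h.np i j n).pre (fm_nest h hY n) w⟩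

/-- the trace of the moved family -/
theorem mv_trace {i : Fin k} (hG : G i ⊆ cl X) (hT : IsLowerSet T)
    (fl : Flat (T ∩ cl X) (cb (ind N))) (dj : ∀ j, j ≠ i → Disjoint N (G j)) :
    (⋃ j, if j = i then mvG X (G i) N else t2 ⁻¹' G j) ∩ t2 ⁻¹' T =
      t2 ⁻¹' (((⋃ j, G j) \ N) ∩ T) ∧
    ∀ x ∈ ((⋃ j, G j) \ N) ∩ T, ∀ y ∈ (⋃ j, G j) ∩ T, Cm x y → y ∈ ((⋃ j, G j) \ N) ∩ T := by
  refine ⟨?_, fun x hx y hy c => ⟨⟨hy.1, fun e => hx.1.2 ?_⟩, hy.2⟩⟩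
  · rw [Set.iUnion_inter, Set.iUnion_sdiff, Set.iUnion_inter, Set.preimage_iUnion]
    refine Set.iUnion_congr fun j => ?_
    split_ifs with e
    · rw [e, mvG_inter hG hT fl]
    · rw [(dj j e).symm.sdiff_eq_left, Set.preimage_inter]
  · obtain ⟨j, hj⟩ := Set.mem_iUnion.1 hy.1
    obtain rfl : j = i := by_contra fun n => Set.disjoint_left.1 (dj j n) e hj
    have hi := fm_cm h hj hx.1.1 c.symm
    exact c.elim (fun l => (cb_ind_eq_zero.1 (fl x ⟨hx.2, hG hi⟩ y ⟨hy.2, hG hj⟩ l)).2 e)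
      fun l => (cb_ind_eq_zero.1 (fl y ⟨hy.2, hG hj⟩ x ⟨hx.2, hG hi⟩ l)).1 e

end fam

/-- **KH-RED1** -/
theorem red1Stmt (ball : BallStmt) (fam : FamStmt) : Red1Stmt := by
  intro P _ _ Y t f k U G V i X u Z h hX r
  have hY : Amb (f ⁻¹' (Ch.top ⁻¹' Y)) := (h.amb.pre (Tw.one P)).pre h.tw
  have m := h.fm.mem i
  obtain ⟨X', tw, side⟩ : ∃ X', Two f (f ⁻¹' (Ch.top ⁻¹' Y)) X (G i) X' ∧
      ∀ j, j ≠ i → G j ⊆ X ∨ G j ⊆ X' := by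
    rcases hX with rfl | rfl
    exacts [⟨_, m.two, fun j n => fm_side h.fm n⟩,
      ⟨_, two_symm m.two hY.up m.sub, fun j n => (fm_side h.fm n).symm⟩]
  obtain ⟨s, g, N, w, bl, fl, ne, dj⟩ :=
    ball _ _ f _ X (G i) X' Z u hY tw m.sub m.conn m.nb r.td r.on r.sub r.ctr r.fro
  have dj' : ∀ j, j ≠ i → Disjoint N (g ⁻¹' G j) := fun j n => (side j n).elim
    (fun e => dj _ (h.fm.mem j).two.bd.low e (h.fm.mem j).conn
      ((r.fg j n).mono fun _ hx => ⟨hx, Hk.sub_cl (e hx)⟩) (h.fm.mem j).nb)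
    fun e => Set.disjoint_left.2 fun x hx k => (bl.sub hx).elim
      (fun a => Set.disjoint_left.1 tw.dj a (e k)) fun a => Set.disjoint_left.1 tw.dg (e k) a
  have fm := fm_pre h.fm hY w
  obtain ⟨U', V', fm'⟩ := fam _ _ _ _ k _ _ _ i (g ⁻¹' X) N (hY.pre w) fm
    (hX.imp (congrArg _) (congrArg _)) bl dj'
  have tr : ∀ n, n ≤ 3 → ncmp ((⋃ j, if j = i then mvG (g ⁻¹' X) (g ⁻¹' G i) N
      else t2 ⁻¹' (g ⁻¹' G j)) ∩ t2 ⁻¹' (g ⁻¹' Sk f n)) =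
        ncmp (((⋃ j, g ⁻¹' G j) \ N) ∩ g ⁻¹' Sk f n) ∧
      ncmp ((⋃ j, g ⁻¹' G j) ∩ g ⁻¹' Sk f n) = ncmp ((⋃ j, G j) ∩ Sk f n) ∧
      ∀ x ∈ ((⋃ j, g ⁻¹' G j) \ N) ∩ g ⁻¹' Sk f n, ∀ y ∈ (⋃ j, g ⁻¹' G j) ∩ g ⁻¹' Sk f n,
        Cm x y → y ∈ ((⋃ j, g ⁻¹' G j) \ N) ∩ g ⁻¹' Sk f n := fun n hn => by
    have l := sk_low h.tw.mono n
    have e := fl _ l (r.ft.mono fun x hx => ⟨le_trans hx.1 hn, hx.2⟩)
    rw [Set.preimage_inter, ← w.cl] at e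
    obtain ⟨e1, e2⟩ := mv_trace fm (i := i) (tw.bd.pre w).sub_cl (w.lower l) e dj'
    exact ⟨e1 ▸ (Tw.two s.P).ncmp _, by
      rw [← Set.preimage_iUnion, ← Set.preimage_inter, w.ncmp], e2⟩
  have sub : ∀ n, ((⋃ j, g ⁻¹' G j) \ N) ∩ g ⁻¹' Sk f n ⊆ (⋃ j, g ⁻¹' G j) ∩ g ⁻¹' Sk f n :=
    fun n => Set.inter_subset_inter_left _ Set.sdiff_subset
  refine ⟨(lv0 s.P).sd.sd, (f ∘ g) ∘ t2, U', _, V', ⟨h.amb, (h.tw.trans w).trans (Tw.two s.P), fm'⟩,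
    ?_, ?_⟩
  · obtain ⟨e1, e2, e3⟩ := tr 2 (by norm_num)
    exact e1.trans_le ((ncmp_le (sub 2) e3).trans_eq e2)
  · obtain ⟨e1, e2, e3⟩ := tr 3 le_rfl
    obtain ⟨x, hx, k1, k2⟩ := ne _ (sk_low h.tw.mono 3) r.ne
    exact e1.trans_lt ((Hp13.ncmp_lt (sub 3) e3 ⟨Set.mem_iUnion.2 ⟨i, k1⟩, k2⟩
      fun e => e.1.2 hx).trans_eq e2)

end Crest.Agent.X212.Kn44
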